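import Vale.Agent.P232.Gap.Spec

/-!
# P232 gap, the kink: a checker for `1 - H/π ≤ C + phi H C` over triangles of `(H, C)`

`sd` dominates every `s` with `(H A + C)² ≤ (1 - s²) m(A)`, `m ≤ lmin²`, a convex condition in
`(A, H A + C, s)`; so rational knots at the three vertices bound `phi` on the whole triangle.
Vertices are in units `2^-20`, areas and values of `s` in units `2^-16`.
-/

open MeasureTheory Set
open scoped Real

noncomputable section

namespace Vale.Agent.P232.Gap.Kink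

/-- A rational lower bound of `lmin²`. -/
def mlo (A : ℝ) : ℝ := min (min (3141592 / 1000000 * A) 1) (3141592 / 1000000 * (1 - A))

/-- `s` is a lower bound of the integrand at area `A` and flux `L`. -/
def Adm (A L s : ℝ) : Prop := 0 ≤ s ∧ s ≤ 1 ∧ L ^ 2 ≤ (1 - s ^ 2) * mlo A

theorem mlo_nonneg {A : ℝ} (h : A ∈ Icc (0 : ℝ) 1) : 0 ≤ mlo A :=
  le_min (le_min (mul_nonneg (by norm_num) h.1) zero_le_one)
    (mul_nonneg (by norm_num) (sub_nonneg.2 h.2))

theorem mlo_mix {A B l k : ℝ} (hl : 0 ≤ l) (hk : 0 ≤ k) (e : l + k = 1) :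
    l * mlo A + k * mlo B ≤ mlo (l * A + k * B) := by
  have h1 : mlo A ≤ 3141592 / 1000000 * A := (min_le_left _ _).trans (min_le_left _ _)
  have h2 : mlo B ≤ 3141592 / 1000000 * B := (min_le_left _ _).trans (min_le_left _ _)
  have h3 : mlo A ≤ 1 := (min_le_left _ _).trans (min_le_right _ _)
  have h4 : mlo B ≤ 1 := (min_le_left _ _).trans (min_le_right _ _)
  have h5 : mlo A ≤ 3141592 / 1000000 * (1 - A) := min_le_right _ _
  have h6 : mlo B ≤ 3141592 / 1000000 * (1 - B) := min_le_right _ _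
  refine le_min (le_min ?_ ?_) ?_
  · linarith [mul_le_mul_of_nonneg_left h1 hl, mul_le_mul_of_nonneg_left h2 hk]
  · nlinarith [mul_le_mul_of_nonneg_left h3 hl, mul_le_mul_of_nonneg_left h4 hk]
  · have := add_le_add (mul_le_mul_of_nonneg_left h5 hl) (mul_le_mul_of_nonneg_left h6 hk)
    refine this.trans (le_of_eq ?_)
    linear_combination (3141592 / 1000000 : ℝ) * e

theorem Adm.mix {A B L M s t l k : ℝ} (hA : A ∈ Icc (0 : ℝ) 1) (hB : B ∈ Icc (0 : ℝ) 1)
    (h : Adm A L s) (h' : Adm B M t) (hl : 0 ≤ l) (hk : 0 ≤ k) (e : l + k = 1) :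
    Adm (l * A + k * B) (l * L + k * M) (l * s + k * t) := by
  obtain ⟨hs0, hs1, hs⟩ := h
  obtain ⟨ht0, ht1, ht⟩ := h'
  have hst : l * s + k * t ≤ 1 := by
    nlinarith [mul_le_mul_of_nonneg_left hs1 hl, mul_le_mul_of_nonneg_left ht1 hk]
  refine ⟨by positivity, hst, ?_⟩
  have g1 : 0 ≤ 1 - s ^ 2 := by nlinarith
  have g2 : 0 ≤ 1 - t ^ 2 := by nlinarith
  have m1 := mlo_nonneg hA
  have m2 := mlo_nonneg hB
  have hcross : 2 * (L * M) ≤ (1 - s ^ 2) * mlo B + (1 - t ^ 2) * mlo A := by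
    have h2 : (2 * (L * M)) ^ 2 ≤ ((1 - s ^ 2) * mlo B + (1 - t ^ 2) * mlo A) ^ 2 := by
      nlinarith [mul_le_mul hs ht (sq_nonneg M) (mul_nonneg g1 m1),
        sq_nonneg ((1 - s ^ 2) * mlo B - (1 - t ^ 2) * mlo A)]
    exact (le_abs_self _).trans (abs_le_of_sq_le_sq h2 (by positivity))
  have hg : l * (1 - s ^ 2) + k * (1 - t ^ 2) ≤ 1 - (l * s + k * t) ^ 2 := by
    have h3 : (l * s + k * t) ^ 2 = (l + k) * (l * s ^ 2 + k * t ^ 2) - l * k * (s - t) ^ 2 := by
      ring
    rw [h3, e]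
    nlinarith [mul_nonneg (mul_nonneg hl hk) (sq_nonneg (s - t))]
  calc (l * L + k * M) ^ 2 = l ^ 2 * L ^ 2 + l * k * (2 * (L * M)) + k ^ 2 * M ^ 2 := by ring
    _ ≤ l ^ 2 * ((1 - s ^ 2) * mlo A) + l * k * ((1 - s ^ 2) * mlo B + (1 - t ^ 2) * mlo A) +
          k ^ 2 * ((1 - t ^ 2) * mlo B) := by gcongr
    _ = (l * (1 - s ^ 2) + k * (1 - t ^ 2)) * (l * mlo A + k * mlo B) := by ring
    _ ≤ _ := mul_le_mul hg (mlo_mix hl hk e) (by positivity) (by nlinarith)

theorem Adm.mix3 {x L₁ L₂ L₃ s₁ s₂ s₃ a b c : ℝ} (hx : x ∈ Icc (0 : ℝ) 1) (h₁ : Adm x L₁ s₁)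
    (h₂ : Adm x L₂ s₂) (h₃ : Adm x L₃ s₃) (ha : 0 ≤ a) (hb : 0 ≤ b) (hc : 0 ≤ c)
    (e : a + b + c = 1) :
    Adm x (a * L₁ + b * L₂ + c * L₃) (a * s₁ + b * s₂ + c * s₃) := by
  rcases (add_nonneg ha hb).eq_or_lt with h0 | h0
  · obtain ⟨rfl, rfl⟩ := (add_eq_zero_iff_of_nonneg ha hb).1 h0.symm
    obtain rfl : c = 1 := by linarith
    simpa using h₃
  set n := a + b with hn
  have e1 : a / n + b / n = 1 := by rw [← add_div, div_self h0.ne']
  have h := (h₁.mix hx hx h₂ (div_nonneg ha h0.le) (div_nonneg hb h0.le) e1).mix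
    (by rw [← add_mul, e1, one_mul]; exact hx) hx h₃ h0.le hc e
  rw [← add_mul (a / n), e1, one_mul, ← add_mul, e, one_mul] at h
  convert h using 1 <;> field_simp

theorem sd_le_one (H C x : ℝ) : sd H C x ≤ 1 :=
  Real.sqrt_le_one.2 (max_le zero_le_one (by linarith [sq_nonneg (max 0 (H * x + C) / lmin x)]))

theorem sd_intervalIntegrable (H C a b : ℝ) : IntervalIntegrable (sd H C) volume a b := by
  have hm : Measurable (sd H C) := by
    unfold sd lmin
    fun_prop
  rw [intervalIntegrable_iff]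
  exact IntegrableOn.of_bound measure_Ioc_lt_top hm.aestronglyMeasurable 1
    (Filter.Eventually.of_forall fun x => by
      rw [Real.norm_eq_abs, abs_of_nonneg (show 0 ≤ sd H C x from Real.sqrt_nonneg _)]
      exact sd_le_one H C x)

theorem lmin_pos {x : ℝ} (hx : x ∈ Ioo (0 : ℝ) 1) : 0 < lmin x :=
  lt_min (lt_min (Real.sqrt_pos.2 (mul_pos Real.pi_pos hx.1)) one_pos)
    (Real.sqrt_pos.2 (mul_pos Real.pi_pos (sub_pos.2 hx.2)))

theorem lmin_sq {x : ℝ} (hx : x ∈ Icc (0 : ℝ) 1) :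
    lmin x ^ 2 = min (min (π * x) 1) (π * (1 - x)) := by
  have h1 : 0 ≤ π * x := mul_nonneg Real.pi_pos.le hx.1
  have h2 : 0 ≤ π * (1 - x) := mul_nonneg Real.pi_pos.le (sub_nonneg.2 hx.2)
  have e : Real.sqrt (min (min (π * x) 1) (π * (1 - x))) = lmin x := by
    rw [Real.sqrt_monotone.map_min, Real.sqrt_monotone.map_min, Real.sqrt_one, lmin]
  rw [← e, Real.sq_sqrt (le_min (le_min h1 zero_le_one) h2)]

theorem mlo_le {x : ℝ} (hx : x ∈ Icc (0 : ℝ) 1) : mlo x ≤ lmin x ^ 2 := by
  rw [lmin_sq hx]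
  have hp : (3141592 : ℝ) / 1000000 ≤ π := by linarith [Real.pi_gt_d6]
  exact min_le_min (min_le_min (mul_le_mul_of_nonneg_right hp hx.1) le_rfl)
    (mul_le_mul_of_nonneg_right hp (sub_nonneg.2 hx.2))

theorem le_sd {H C x s : ℝ} (hx : x ∈ Ioo (0 : ℝ) 1) (hL : 0 ≤ H * x + C)
    (h : Adm x (H * x + C) s) : s ≤ sd H C x := by
  obtain ⟨hs0, hs1, hs⟩ := h
  have hl := lmin_pos hx
  rw [sd, max_eq_right hL]
  refine Real.le_sqrt_of_sq_le (le_max_of_le_right ?_)
  have hq : ((H * x + C) / lmin x) ^ 2 ≤ 1 - s ^ 2 := by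
    rw [div_pow, div_le_iff₀ (pow_pos hl 2)]
    exact hs.trans (mul_le_mul_of_nonneg_left (mlo_le (Ioo_subset_Icc_self hx)) (by nlinarith))
  linarith

theorem phi_nonneg (H C : ℝ) : 0 ≤ phi H C :=
  intervalIntegral.integral_nonneg zero_le_one fun _ _ => Real.sqrt_nonneg _

/-! ## Near the origin -/

theorem small_sound {H C : ℝ} (hH : 0 ≤ H) (hC : 0 ≤ C) (hs : H + C ≤ 1 / 100) :
    1 - H / π ≤ C + phi H C ∧ (0 < H + C → 1 - H / π < C + phi H C) := by
  have hπ := Real.pi_pos
  set s := H + C with hsdef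
  have hgain : s / π ≤ C + H / π := by
    rw [hsdef, add_div]
    linarith [div_le_self hC (by linarith [Real.pi_gt_three] : (1 : ℝ) ≤ π)]
  rcases (add_nonneg hH hC : 0 ≤ s).eq_or_lt with h0 | h0
  · obtain ⟨rfl, rfl⟩ := (add_eq_zero_iff_of_nonneg hH hC).1 h0.symm
    have : phi 0 0 = 1 := by simp [phi, sd]
    refine ⟨?_, fun h => absurd h (by simp [hsdef])⟩
    rw [this]
    simp
  set d := s / 20 with hd
  have hd0 : 0 < d := by positivity
  have hd1 : d ≤ 1 - d := by linarith [show d ≤ 1 / 2000 by linarith]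
  set g : ℝ → ℝ := fun x => (1 - s ^ 2) - s ^ 2 / π * (1 / x) - s ^ 2 / π * (1 / (1 - x)) with hg
  have i1 : IntervalIntegrable (fun x : ℝ => 1 / x) volume d (1 - d) := by
    refine (continuousOn_const.div continuousOn_id fun x hx => ?_).intervalIntegrable
    rw [uIcc_of_le hd1] at hx
    exact (hd0.trans_le hx.1).ne'
  have i2 : IntervalIntegrable (fun x : ℝ => 1 / (1 - x)) volume d (1 - d) := by
    refine (continuousOn_const.div (continuousOn_const.sub continuousOn_id) fun x hx => ?_)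
      |>.intervalIntegrable
    rw [uIcc_of_le hd1] at hx
    exact (show (0 : ℝ) < 1 - x by linarith [hx.2]).ne'
  have hle : ∫ x in d..(1 - d), g x ≤ phi H C := by
    refine le_trans ?_ (intervalIntegral.integral_mono_interval hd0.le hd1 (by linarith)
      (Filter.Eventually.of_forall fun x => Real.sqrt_nonneg _) (sd_intervalIntegrable H C 0 1))
    refine intervalIntegral.integral_mono_on hd1
      ((intervalIntegrable_const.sub (i1.const_mul _)).sub (i2.const_mul _))
      (sd_intervalIntegrable H C _ _) fun x hx => ?_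
    have hx' : x ∈ Ioo (0 : ℝ) 1 := ⟨by linarith [hx.1], by linarith [hx.2]⟩
    have hl := lmin_pos hx'
    have hL : 0 ≤ H * x + C := by nlinarith [hx'.1]
    have hLs : H * x + C ≤ s := by nlinarith [hx'.2]
    set q := ((H * x + C) / lmin x) ^ 2 with hq
    have hq1 : q ≤ s ^ 2 + s ^ 2 / π * (1 / x) + s ^ 2 / π * (1 / (1 - x)) := by
      have hinv : 1 / lmin x ^ 2 ≤ 1 + 1 / (π * x) + 1 / (π * (1 - x)) := by
        have p1 : 0 < 1 / (π * x) := div_pos one_pos (mul_pos hπ hx'.1)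
        have p2 : 0 < 1 / (π * (1 - x)) := div_pos one_pos (mul_pos hπ (sub_pos.2 hx'.2))
        rw [lmin_sq (Ioo_subset_Icc_self hx')]
        rcases min_choice (min (π * x) 1) (π * (1 - x)) with h | h <;> rw [h]
        · rcases min_choice (π * x) 1 with h' | h' <;> rw [h'] <;>
            linarith [div_one (1 : ℝ)]
        · linarith
      calc q = (H * x + C) ^ 2 * (1 / lmin x ^ 2) := by rw [hq, div_pow]; ring
        _ ≤ s ^ 2 * (1 + 1 / (π * x) + 1 / (π * (1 - x))) :=
            mul_le_mul (pow_le_pow_left₀ hL hLs 2) hinv (by positivity) (by positivity)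
        _ = _ := by field_simp
    have hgq : g x ≤ 1 - q := by simp only [hg]; linarith
    refine hgq.trans ?_
    rw [sd, max_eq_right hL, ← hq]
    rcases le_or_gt (1 - q) 0 with h1 | h1
    · exact h1.trans (Real.sqrt_nonneg _)
    · refine Real.le_sqrt_of_sq_le (le_max_of_le_right ?_)
      nlinarith [sq_nonneg ((H * x + C) / lmin x)]
  set l := Real.log ((1 - d) / d) with hldef
  have e1 : ∫ x in d..(1 - d), (1 : ℝ) / x = l :=
    integral_one_div_of_pos hd0 (by linarith)
  have e2 : ∫ x in d..(1 - d), (1 : ℝ) / (1 - x) = l := by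
    have := intervalIntegral.integral_comp_sub_left (fun x : ℝ => 1 / x) (1 : ℝ) (a := d)
      (b := 1 - d)
    rw [this]
    simpa using e1
  have eg : ∫ x in d..(1 - d), g x = (1 - 2 * d) * (1 - s ^ 2) - 2 * (s ^ 2 / π) * l := by
    simp only [hg]
    rw [intervalIntegral.integral_sub (intervalIntegrable_const.sub (i1.const_mul _))
        (i2.const_mul _), intervalIntegral.integral_sub intervalIntegrable_const (i1.const_mul _),
      intervalIntegral.integral_const_mul, intervalIntegral.integral_const_mul, e1, e2,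
      intervalIntegral.integral_const, smul_eq_mul]
    ring
  set w := Real.sqrt (Real.sqrt (20 / s)) with hw
  have hw4 : w ^ 4 = 20 / s := by
    rw [hw, show (4 : ℕ) = 2 * 2 from rfl, pow_mul, Real.sq_sqrt (Real.sqrt_nonneg _),
      Real.sq_sqrt (by positivity)]
  have hw0 : 0 < w := Real.sqrt_pos.2 (Real.sqrt_pos.2 (by positivity))
  have hl : l ≤ 4 * w := by
    have h1 : l ≤ Real.log (w ^ 4) := by
      refine Real.log_le_log (div_pos (by linarith) hd0) ?_
      rw [hw4, hd, div_div_eq_mul_div]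
      exact div_le_div_of_nonneg_right (by linarith) h0.le
    rw [Real.log_pow] at h1
    push_cast at h1
    linarith [Real.log_le_sub_one_of_pos hw0]
  have hsw : s * w ≤ 7 / 100 := by
    refine le_of_pow_le_pow_left₀ (n := 4) (by norm_num) (by norm_num) ?_
    rw [mul_pow, hw4]
    calc s ^ 4 * (20 / s) = 20 * s ^ 3 := by field_simp
      _ ≤ 20 * (1 / 100) ^ 3 := by gcongr
      _ ≤ _ := by norm_num
  have hsl : s ^ 2 * l ≤ 7 / 25 * s := by nlinarith [mul_le_mul_of_nonneg_left hl (sq_nonneg s)]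
  have hp1 : (10000 : ℝ) / 31416 ≤ 1 / π := by
    rw [div_le_div_iff₀ (by norm_num) hπ]; linarith [Real.pi_lt_d4]
  have hp2 : 1 / π ≤ (10000 : ℝ) / 31415 := by
    rw [div_le_div_iff₀ hπ (by norm_num)]; linarith [Real.pi_gt_d4]
  have h5 : 2 * (s ^ 2 / π) * l ≤ 56 / 100 * (10000 / 31415) * s := by
    calc 2 * (s ^ 2 / π) * l = 2 * (1 / π) * (s ^ 2 * l) := by ring
      _ ≤ 2 * (1 / π) * (7 / 25 * s) := mul_le_mul_of_nonneg_left hsl (by positivity)
      _ ≤ 2 * (10000 / 31415) * (7 / 25 * s) := by gcongr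
      _ = _ := by ring
  have h6 : 10000 / 31416 * s ≤ s / π := by
    rw [div_eq_mul_one_div s π]; nlinarith
  have h7 : 1 - H / π < C + phi H C := by
    nlinarith [mul_le_mul_of_nonneg_left hs h0.le, mul_nonneg hd0.le (sq_nonneg s)]
  exact ⟨h7.le, fun _ => h7⟩

/-! ## The checker -/

/-- A knot: area and the values of `s` at the three vertices, in units `2^-16`. -/
structure K where
  t : ℕ
  s₁ : ℕ
  s₂ : ℕ
  s₃ : ℕ

/-- A vertex `(H, C)`, in units `2^-20`. -/
structure P where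
  h : ℕ
  c : ℕ

/-- A triangle cover; `split` halves the first edge, `rot` and `rot2` renumber the vertices. -/
inductive Tree where
  | leaf (l : List K)
  | small
  | split (l r : Tree)
  | rot (t : Tree)
  | rot2 (t : Tree)

/-- `Adm` in integers. -/
def admB (v : P) (t s : ℕ) : Bool :=
  decide (t ≤ 65536) && decide (s ≤ 65536) &&
    decide ((v.h * t + v.c * 65536) ^ 2 * 1000000 * 65536 ≤
      (65536 ^ 2 - s ^ 2) * 1048576 *
        min (min (3141592 * t) (1000000 * 65536)) (3141592 * (65536 - t)) * 1048576)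

/-- The knots are increasing and admissible at the three vertices. -/
def knotsB (u v w : P) : List K → Bool
  | [] => true
  | [k] => admB u k.t k.s₁ && admB v k.t k.s₂ && admB w k.t k.s₃
  | k :: k' :: r => admB u k.t k.s₁ && admB v k.t k.s₂ && admB w k.t k.s₃ &&
      decide (k.t < k'.t) && knotsB u v w (k' :: r)

/-- Twice the trapezoid sums. -/
def trapK (f : K → ℕ) : List K → ℕ
  | [] => 0
  | [_] => 0
  | k :: k' :: r => (k'.t - k.t) * (f k + f k') + trapK f (k' :: r)

/-- The bound at a vertex. -/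
def goalB (v : P) (tr : ℕ) : Bool :=
  decide (2 * 65536 ^ 2 * 1048576 * 3141593 <
    (2 * 65536 ^ 2 * v.c + 1048576 * tr) * 3141593 + 2 * 65536 ^ 2 * v.h * 1000000)

/-- The cover check. -/
def treeB : Tree → P → P → P → Bool
  | .leaf l, u, v, w => knotsB u v w l && goalB u (trapK K.s₁ l) && goalB v (trapK K.s₂ l) &&
      goalB w (trapK K.s₃ l)
  | .small, u, v, w => decide ((u.h + u.c) * 100 ≤ 1048576) &&
      decide ((v.h + v.c) * 100 ≤ 1048576) && decide ((w.h + w.c) * 100 ≤ 1048576)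
  | .split l r, u, v, w =>
      decide (2 ∣ u.h + v.h) && decide (2 ∣ u.c + v.c) &&
        treeB l u ⟨(u.h + v.h) / 2, (u.c + v.c) / 2⟩ w &&
        treeB r ⟨(u.h + v.h) / 2, (u.c + v.c) / 2⟩ v w
  | .rot t, u, v, w => treeB t v w u
  | .rot2 t, u, v, w => treeB t w u v

/-- The value of `H` at a vertex. -/
def P.H (v : P) : ℝ := v.h / 1048576

/-- The value of `C` at a vertex. -/
def P.C (v : P) : ℝ := v.c / 1048576

theorem admB_sound {v : P} {t s : ℕ} (h : admB v t s = true) :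
    (t : ℝ) / 65536 ∈ Icc (0 : ℝ) 1 ∧
      Adm (t / 65536) (v.H * (t / 65536) + v.C) (s / 65536) := by
  simp only [admB, Bool.and_eq_true, decide_eq_true_eq] at h
  obtain ⟨⟨ht, hs⟩, h⟩ := h
  have hs2 : s ^ 2 ≤ 65536 ^ 2 := Nat.pow_le_pow_left hs 2
  have ht' : (t : ℝ) ≤ 65536 := by exact_mod_cast ht
  have hs' : (s : ℝ) ≤ 65536 := by exact_mod_cast hs
  have h' := (Nat.cast_le (α := ℝ)).2 h
  simp only [Nat.cast_mul, Nat.cast_pow, Nat.cast_sub hs2, Nat.cast_sub ht, Nat.cast_min,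
    Nat.cast_add, Nat.cast_ofNat] at h'
  refine ⟨⟨by positivity, (div_le_one (by norm_num)).2 ht'⟩, by positivity,
    (div_le_one (by norm_num)).2 hs', ?_⟩
  have e : mlo ((t : ℝ) / 65536) =
      min (min (3141592 * (t : ℝ)) (1000000 * 65536)) (3141592 * (65536 - (t : ℝ))) /
        (1000000 * 65536) := by
    have hd : (0 : ℝ) ≤ 1000000 * 65536 := by norm_num
    rw [← min_div_div_right hd, ← min_div_div_right hd, mlo]
    congr 1
    · congr 1
      · ring
      · norm_num
    · ring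
  rw [e, P.H, P.C]
  generalize min (min (3141592 * (t : ℝ)) (1000000 * 65536)) (3141592 * (65536 - (t : ℝ))) = m
    at h' ⊢
  field_simp
  nlinarith

theorem knotsB_head {u v w : P} {k : K} {r : List K} (h : knotsB u v w (k :: r) = true) :
    admB u k.t k.s₁ = true ∧ admB v k.t k.s₂ = true ∧ admB w k.t k.s₃ = true := by
  cases r <;> simp_all [knotsB]

theorem knots_sound {u v w : P} {a b c H C : ℝ} (ha : 0 ≤ a) (hb : 0 ≤ b) (hc : 0 ≤ c)
    (e : a + b + c = 1) (hH : H = a * u.H + b * v.H + c * w.H)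
    (hC : C = a * u.C + b * v.C + c * w.C) : ∀ (r : List K) (k : K), knotsB u v w (k :: r) = true →
    (a * trapK K.s₁ (k :: r) + b * trapK K.s₂ (k :: r) + c * trapK K.s₃ (k :: r)) /
        (2 * 65536 ^ 2) ≤ ∫ x in ((k.t : ℝ) / 65536)..1, sd H C x
  | [], k, h => by
    obtain ⟨h1, -, -⟩ := knotsB_head h
    simp only [trapK, Nat.cast_zero, mul_zero, add_zero, zero_div]
    exact intervalIntegral.integral_nonneg (admB_sound h1).1.2 fun _ _ => Real.sqrt_nonneg _
  | k' :: r, k, h => by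
    obtain ⟨h1, h2, h3⟩ := knotsB_head h
    simp only [knotsB, Bool.and_eq_true, decide_eq_true_eq] at h
    obtain ⟨⟨-, hlt⟩, hr⟩ := h
    obtain ⟨h1', h2', h3'⟩ := knotsB_head hr
    have ih := knots_sound ha hb hc e hH hC r k' hr
    obtain ⟨hk, A1⟩ := admB_sound h1
    obtain ⟨hk', A1'⟩ := admB_sound h1'
    obtain ⟨-, A2⟩ := admB_sound h2
    obtain ⟨-, A2'⟩ := admB_sound h2'
    obtain ⟨-, A3⟩ := admB_sound h3
    obtain ⟨-, A3'⟩ := admB_sound h3'
    set t : ℝ := (k.t : ℝ) / 65536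
    set t' : ℝ := (k'.t : ℝ) / 65536
    have htt : t < t' := div_lt_div_of_pos_right (by exact_mod_cast hlt) (by norm_num)
    rw [← intervalIntegral.integral_add_adjacent_intervals (sd_intervalIntegrable H C t t')
      (sd_intervalIntegrable H C t' 1)]
    set p₁ : ℝ := (a * k.s₁ + b * k.s₂ + c * k.s₃) / 65536
    set p₂ : ℝ := (a * k'.s₁ + b * k'.s₂ + c * k'.s₃) / 65536
    have hseg : (t' - t) * (p₁ + p₂) / 2 ≤ ∫ x in t..t', sd H C x := by
      have he : ∫ x in t..t', ((p₂ - p₁) / (t' - t) * x + (p₁ - (p₂ - p₁) / (t' - t) * t)) =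
          (t' - t) * (p₁ + p₂) / 2 := by
        rw [intervalIntegral.integral_add (by apply Continuous.intervalIntegrable; fun_prop)
          (by apply Continuous.intervalIntegrable; fun_prop), intervalIntegral.integral_const_mul,
          integral_id, intervalIntegral.integral_const, smul_eq_mul]
        have : t' - t ≠ 0 := (sub_pos.2 htt).ne'
        field_simp
        ring
      rw [← he]
      refine intervalIntegral.integral_mono_on_of_le_Ioo htt.le
        (by apply Continuous.intervalIntegrable; fun_prop) (sd_intervalIntegrable H C t t')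
        fun x hx => ?_
      have hx1 : x ∈ Ioo (0 : ℝ) 1 := ⟨hk.1.trans_lt hx.1, hx.2.trans_le hk'.2⟩
      set θ := (x - t) / (t' - t) with hθ
      have hθ0 : 0 ≤ θ := div_nonneg (sub_nonneg.2 hx.1.le) (sub_pos.2 htt).le
      have hθ1 : θ ≤ 1 := (div_le_one (sub_pos.2 htt)).2 (by linarith [hx.2])
      have hxe : (1 - θ) * t + θ * t' = x := by
        rw [hθ]
        have : t' - t ≠ 0 := (sub_pos.2 htt).ne'
        field_simp
        ring
      have B1 := A1.mix hk hk' A1' (sub_nonneg.2 hθ1) hθ0 (sub_add_cancel 1 θ)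
      have B2 := A2.mix hk hk' A2' (sub_nonneg.2 hθ1) hθ0 (sub_add_cancel 1 θ)
      have B3 := A3.mix hk hk' A3' (sub_nonneg.2 hθ1) hθ0 (sub_add_cancel 1 θ)
      rw [hxe] at B1 B2 B3
      have hA := Adm.mix3 (Ioo_subset_Icc_self hx1) B1 B2 B3 ha hb hc e
      have hLe : a * ((1 - θ) * (u.H * t + u.C) + θ * (u.H * t' + u.C)) +
          b * ((1 - θ) * (v.H * t + v.C) + θ * (v.H * t' + v.C)) +
          c * ((1 - θ) * (w.H * t + w.C) + θ * (w.H * t' + w.C)) = H * x + C := by
        rw [hH, hC, ← hxe]; ring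
      rw [hLe] at hA
      have hL : 0 ≤ H * x + C := by
        have := hx1.1
        rw [hH, hC]
        simp only [P.H, P.C]
        positivity
      refine le_of_eq_of_le ?_ (le_sd hx1 hL hA)
      have e2 : (p₂ - p₁) / (t' - t) * x + (p₁ - (p₂ - p₁) / (t' - t) * t) =
          (1 - θ) * p₁ + θ * p₂ := by rw [hθ]; ring
      rw [e2]
      simp only [p₁, p₂]
      ring
    refine le_trans (le_of_eq ?_) (add_le_add hseg ih)
    simp only [trapK, p₁, p₂, t, t']
    push_cast [Nat.cast_sub hlt.le]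
    ring

theorem leaf_sound {u v w : P} {l : List K} (h : treeB (.leaf l) u v w = true) {a b c H C : ℝ}
    (ha : 0 ≤ a) (hb : 0 ≤ b) (hc : 0 ≤ c) (e : a + b + c = 1)
    (hH : H = a * u.H + b * v.H + c * w.H) (hC : C = a * u.C + b * v.C + c * w.C) :
    1 - H / π < C + phi H C := by
  simp only [treeB, Bool.and_eq_true] at h
  obtain ⟨⟨⟨hk, g1⟩, g2⟩, g3⟩ := h
  have hphi : (a * trapK K.s₁ l + b * trapK K.s₂ l + c * trapK K.s₃ l) / (2 * 65536 ^ 2) ≤
      phi H C := by
    clear g1 g2 g3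
    rcases l with _ | ⟨k, r⟩
    · simp only [trapK, Nat.cast_zero, mul_zero, add_zero, zero_div]
      exact phi_nonneg H C
    · refine (knots_sound ha hb hc e hH hC r k hk).trans ?_
      exact intervalIntegral.integral_mono_interval (by positivity)
        (admB_sound (knotsB_head hk).1).1.2 le_rfl
        (Filter.Eventually.of_forall fun x => Real.sqrt_nonneg _) (sd_intervalIntegrable H C 0 1)
  have hp : (1000000 : ℝ) / 3141593 ≤ 1 / π := by
    rw [div_le_div_iff₀ (by norm_num) Real.pi_pos]; linarith [Real.pi_lt_d6]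
  have hH0 : 0 ≤ H := by rw [hH]; simp only [P.H]; positivity
  have hHπ : H * (1000000 / 3141593) ≤ H / π := by
    rw [div_eq_mul_one_div H π]; exact mul_le_mul_of_nonneg_left hp hH0
  have goal_cast : ∀ {x : P} {n : ℕ}, goalB x n = true →
      (1 : ℝ) < x.C + n / (2 * 65536 ^ 2) + x.H * (1000000 / 3141593) := by
    intro x n hg
    simp only [goalB, decide_eq_true_eq] at hg
    have hg' := (Nat.cast_lt (α := ℝ)).2 hg
    push_cast at hg'
    simp only [P.C, P.H]
    linarith
  set m := min (min (u.C + trapK K.s₁ l / (2 * 65536 ^ 2) + u.H * (1000000 / 3141593))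
    (v.C + trapK K.s₂ l / (2 * 65536 ^ 2) + v.H * (1000000 / 3141593)))
    (w.C + trapK K.s₃ l / (2 * 65536 ^ 2) + w.H * (1000000 / 3141593)) with hm
  have hm1 : 1 < m := lt_min (lt_min (goal_cast g1) (goal_cast g2)) (goal_cast g3)
  have s1 := mul_le_mul_of_nonneg_left ((min_le_left _ _).trans (min_le_left _ _) : m ≤ _) ha
  have s2 := mul_le_mul_of_nonneg_left ((min_le_left _ _).trans (min_le_right _ _) : m ≤ _) hb
  have s3 := mul_le_mul_of_nonneg_left (min_le_right _ _ : m ≤ _) hc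
  rw [← hm] at s1 s2 s3
  have hme : a * m + b * m + c * m = m := by linear_combination m * e
  rw [add_div, add_div, mul_div_assoc, mul_div_assoc, mul_div_assoc] at hphi
  rw [hH] at hHπ
  rw [hH, hC] at *
  linarith

theorem tree_sound : ∀ (T : Tree) (u v w : P), treeB T u v w = true → ∀ a b c H C : ℝ, 0 ≤ a →
    0 ≤ b → 0 ≤ c → a + b + c = 1 → H = a * u.H + b * v.H + c * w.H →
      C = a * u.C + b * v.C + c * w.C →
        1 - H / π ≤ C + phi H C ∧ (0 < H + C → 1 - H / π < C + phi H C)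
  | .leaf l, u, v, w, h, a, b, c, H, C, ha, hb, hc, e, hH, hC =>
    have h' := leaf_sound h ha hb hc e hH hC
    ⟨h'.le, fun _ => h'⟩
  | .small, u, v, w, h, a, b, c, H, C, ha, hb, hc, e, hH, hC => by
    simp only [treeB, Bool.and_eq_true, decide_eq_true_eq] at h
    obtain ⟨⟨h1, h2⟩, h3⟩ := h
    have hx : ∀ {x : P}, (x.h + x.c) * 100 ≤ 1048576 → x.H + x.C ≤ 1 / 100 := fun {x} hx => by
      have := (Nat.cast_le (α := ℝ)).2 hx
      push_cast at this
      simp only [P.H, P.C]
      linarith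
    refine small_sound ?_ ?_ ?_
    · rw [hH]; simp only [P.H]; positivity
    · rw [hC]; simp only [P.C]; positivity
    · rw [hH, hC]
      nlinarith [mul_le_mul_of_nonneg_left (hx h1) ha, mul_le_mul_of_nonneg_left (hx h2) hb,
        mul_le_mul_of_nonneg_left (hx h3) hc]
  | .split l r, u, v, w, h, a, b, c, H, C, ha, hb, hc, e, hH, hC => by
    simp only [treeB, Bool.and_eq_true, decide_eq_true_eq] at h
    obtain ⟨⟨⟨d1, d2⟩, hl⟩, hr⟩ := h
    have eH : (⟨(u.h + v.h) / 2, (u.c + v.c) / 2⟩ : P).H = (u.H + v.H) / 2 := by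
      simp only [P.H]; rw [Nat.cast_div d1 (by norm_num)]; push_cast; ring
    have eC : (⟨(u.h + v.h) / 2, (u.c + v.c) / 2⟩ : P).C = (u.C + v.C) / 2 := by
      simp only [P.C]; rw [Nat.cast_div d2 (by norm_num)]; push_cast; ring
    rcases le_total b a with hab | hab
    · refine tree_sound l _ _ _ hl (a - b) (2 * b) c H C (sub_nonneg.2 hab) (by linarith) hc
        (by linarith) ?_ ?_
      · rw [eH, hH]; ring
      · rw [eC, hC]; ring
    · refine tree_sound r _ _ _ hr (2 * a) (b - a) c H C (by linarith) (sub_nonneg.2 hab) hc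
        (by linarith) ?_ ?_
      · rw [eH, hH]; ring
      · rw [eC, hC]; ring
  | .rot t, u, v, w, h, a, b, c, H, C, ha, hb, hc, e, hH, hC =>
    tree_sound t v w u h b c a H C hb hc ha (by linarith) (by rw [hH]; ring) (by rw [hC]; ring)
  | .rot2 t, u, v, w, h, a, b, c, H, C, ha, hb, hc, e, hH, hC =>
    tree_sound t w u v h c a b H C hc ha hb (by linarith) (by rw [hH]; ring) (by rw [hC]; ring)

end Vale.Agent.P232.Gap.Kink
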